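import Vale.Agent.P277W.Rows
import Vale.Agent.P285WH.Stein
import Vale.Agent.P277Z.Pj.Stb

/-!
# P277W: the rows NRM and SMO
-/

open scoped Manifold ContDiff Topology
open Set Filter Function
open Vale.Agent.P272.K Vale.Agent.P277 Vale.Agent.P281Z Vale.Agent.P277Z.Pj
open Vale.Agent.P277Z (Hol at_chart)
open Vale.Agent.P285KS (Bm HX)

noncomputable section

namespace Vale.Agent.P277W

/-- resolution of singularities -/
theorem res_bm {n : ℕ} {X : CSp} {B : Set X.pt} (hn : 1 ≤ n) (hB : IsAn X univ B) (hd : Dense Bᶜ)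
    (hr : ∀ x ∉ B, IsReg n X x) : ∃ (V : Mf n) (π : V.X → X.pt), Bm n X π B := by
  obtain ⟨I, rfl⟩ := P277Z.GH.fam X B hB
  obtain ⟨o⟩ := P277Z.Hir.stMain I.base n univ hn ⟨X.model, hr, hd⟩ isCompact_univ
  let := o.top
  let := o.t2
  let := o.cs
  let := o.mf
  have : CompactSpace o.Y := ⟨o.proper univ o.sub isCompact_univ⟩
  have hx : HX n X o.π := ⟨o.cont, fun y g h => .of_chart (at_chart y) (o.hol y g h)⟩
  refine ⟨⟨o.Y⟩, o.π, hx, fun x => (isCompact_range o.cont).isClosed.closure_subset_iff.2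
    (fun z hz => o.surj z (o.sub trivial) hz) (hd x), hB, o.dense, o.one, fun y g hy hg => ?_⟩
  obtain ⟨σ, a1, a2, a3, a4⟩ := o.sec y hy
  have he := at_chart (n := n) y
  refine ⟨fun x => g ((chartAt (Cm n) y).symm (chartAt (Cm n) y (σ x))),
    hol_comp (G := fun z => g ((chartAt (Cm n) y).symm z)) a4 (by
      simpa only [a2] using hg _ he), ?_⟩
  filter_upwards [o.cont.continuousAt.eventually a3, o.cont.continuousAt.eventually
    (I.closed.isOpen_compl.mem_nhds hy), chart_source_mem_nhds (Cm n) y] with z b1 b2 b3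
  rw [comp_apply, o.one z _ b2 b1, (chartAt (Cm n) y).left_inv b3]

theorem normal_of {V : Mf 4} {X : CSp} {μ : V.X → X.pt} {Z : Set X.pt} (hb : Bm 4 X μ Z)
    (hs : Stein 4 X μ) (hx : Nonempty X.pt) : IsNormal 4 X := by
  have : Nonempty V.X := hx.elim fun x => ⟨(hb.surj x).choose⟩
  refine (nrm_of stb 2 V.X X μ hs (hb.dense.mono fun w hw => ?_)).1
  choose g g1 g2 using fun a => hb.iso w _ hw (hol_chart (at_chart w) a)
  exact ⟨_, fun y a => g a y, g1, (imm_chart (at_chart w)).congr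
    ((eventually_all.2 g2).mono fun v hv => funext hv)⟩

theorem an_clopen {X : CSp} {A : Set X.pt} (h : IsClopen A) : IsAn X univ A := fun x _ => by
  by_cases m : x ∈ A
  · exact ⟨0, fun i => i.elim0, fun i => i.elim0,
      (h.isOpen.eventually_mem m).mono fun y a => iff_of_true a fun i => i.elim0⟩
  · exact ⟨1, fun _ _ => 1, fun _ => hol_const 1 x, (h.isClosed.isOpen_compl.eventually_mem m).mono
      fun y a => iff_of_false a fun k => one_ne_zero (k 0)⟩

theorem nrm : NRM := fun X h => by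
  obtain ⟨V, μ, hb⟩ := res_bm (by norm_num) (P277Z.Glc.sing_an h.dim)
    (h.dim.mono fun _ a b => b a) fun _ => not_not.1
  exact ⟨normal_of hb (P285WH.stein 3 V X μ _ h.normal hb) h.ne,
    connectedSpace_iff_clopen.2 ⟨h.ne, fun A hA => (h.irr A Aᶜ (an_clopen hA) (an_clopen hA.compl)
      (union_compl_self A)).symm.imp_left compl_univ_iff.1⟩⟩

theorem smo : SMO := fun X hx hr => by
  obtain ⟨V, μ, hb⟩ := res_bm (B := ∅) (by norm_num) (an_clopen isClopen_empty) (by simp)
    fun x _ => hr x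
  refine normal_of hb ⟨⟨hb.cont, hb.hol⟩, hb.surj, fun y f hf => ?_⟩ hx
  obtain ⟨w, rfl⟩ := hb.surj y
  obtain ⟨g, g1, g2⟩ := hb.iso w f id (hf w rfl)
  exact ⟨g, g1, fun v hv => hb.inj w v id hv ▸ g2⟩

end Vale.Agent.P277W
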